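import Vale.Agent.P355.H790C.Tr4
import Vale.Agent.P355.H790C.L4

/-! The list of codes in packed form. -/

namespace Vale.Agent.P355.H790C

theorem pk4 : Vale.Agent.P355.H129.pk 80 tr l4 ids = some ((PT, MT), (QT, MTn)) := by
  decide +kernel

theorem hMT : MT < 2 ^ 80 := by decide +kernel
theorem hMTn : MTn < 2 ^ 80 := by decide +kernel
theorem hMB : MB < 2 ^ 80 := by decide +kernel

end Vale.Agent.P355.H790C
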